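import Vale.Agent.P210.R2.H204.Svi

/-!
# Second variation along minimal geodesics with a general weight
-/

open scoped Manifold ContDiff Topology Bundle
open Set Metric Filter Bundle IsManifold MeasureTheory Manifold Asymptotics

set_option maxSynthPendingDepth 3

noncomputable section

namespace Vale.Agent.P210.R2.H465

open Vale.Agent.P210.R2.H53 Vale.Agent.P210.H204

section

variable {E : Type} [NormedAddCommGroup E] [NormedSpace ℝ E] [FiniteDimensional ℝ E]
  {M : Type} [MetricSpace M] [ChartedSpace E M]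
  [RiemannianBundle (fun x : M => TangentSpace 𝓘(ℝ, E) x)]
  [IsManifold 𝓘(ℝ, E) ∞ M]
  [IsContMDiffRiemannianBundle 𝓘(ℝ, E) ∞ E (fun x : M => TangentSpace 𝓘(ℝ, E) x)]
  [IsRiemannianManifold 𝓘(ℝ, E) M]

/-- Propagation of the total second order bound along a geodesic. -/
theorem Fr_propagate (hJET : Stmt.JET) (hGEO : Stmt.GEO) (hSTEP : Stmt.STEP)
    {c : ℝ → M} {ℓ : ℝ} (hℓ : 0 < ℓ) (hc : MinGeo c 0 ℓ) {a b S : ℝ} (ha : 0 ≤ a)
    (hab : a ≤ b) (hb : b ≤ ℓ) {g φ φ' : ℝ → ℝ} (hg : ContinuousOn g (Icc a b))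
    (hφ : ∀ t ∈ Icc a b, HasDerivWithinAt φ (φ' t) (Icc a b) t)
    (hφ' : ContinuousOn φ' (Icc a b))
    (H : ∀ t ∈ Ioo a b, ∀ e ∈ maximalAtlas 𝓘(ℝ, E) ∞ M, c t ∈ e.source → ∀ v : E,
      HasDerivAt (fun s => e (c s)) v t → chartG e (e (c t)) v v = 1 →
      ∀ Y : Module.Basis (Fin (Module.finrank ℝ E)) ℝ E, ON (chartG e (e (c t))) Y →
        φ' t ^ 2 * (Module.finrank ℝ E - 1) -
          φ t ^ 2 * ∑ i, secG (chartG e) (e (c t)) (Y i) v ≤ g t)
    (h : Fr E (c 0) c a (φ a) S) :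
    Fr E (c 0) c b (φ b) (S + ∫ t in a..b, g t) := by
  have hJ := (hJET E M).1
  have hG2 := (hGEO E M).2.1
  have hgi : ∀ s ∈ Icc a b, ∀ s' ∈ Icc a b, IntervalIntegrable g volume s s' := fun s hs s' hs' =>
    (hg.mono (uIcc_subset_Icc hs hs')).intervalIntegrable
  refine interval_propagate (P := fun t => Fr E (c 0) c t (φ t) (S + ∫ r in a..t, g r))
    hab ?_ (by simpa using h)
  intro t ht
  have htℓ : t ∈ Icc 0 ℓ := ⟨ha.trans ht.1, ht.2.trans hb⟩
  obtain ⟨δ, hδ, w, w', hgeo, hcw⟩ := hG2 c 0 ℓ t hℓ hc htℓ (chartAt E (c t))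
    (chart_mem_maximalAtlas (c t)) (mem_chart_source E (c t))
  set e := chartAt E (c t) with he
  have hem : e ∈ maximalAtlas 𝓘(ℝ, E) ∞ M := chart_mem_maximalAtlas (c t)
  refine ⟨δ, hδ, fun s hs s' hs' hst hs't hss hP => ?_⟩
  rcases hss.eq_or_lt with heq | hlt
  · rw [← heq]; exact hP
  have hsℓ : ∀ r ∈ Icc s s', r ∈ Icc 0 ℓ ∧ |r - t| < δ ∧ r ∈ Icc a b := by
    intro r hr
    refine ⟨⟨(ha.trans hs.1).trans hr.1, (hr.2.trans hs'.2).trans hb⟩, ?_,
      ⟨hs.1.trans hr.1, hr.2.trans hs'.2⟩⟩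
    rw [abs_lt] at hst hs't ⊢
    exact ⟨by linarith [hr.1, hst.1], by linarith [hr.2, hs't.2]⟩
  have hmem : s ∈ Icc s s' := ⟨le_rfl, hss⟩
  have hmem' : s' ∈ Icc s s' := ⟨hss, le_rfl⟩
  have hsrc : ∀ r ∈ Icc s s', c r ∈ e.source ∧ e (c r) = w r := fun r hr =>
    hcw r (hsℓ r hr).1 (hsℓ r hr).2.1
  have hG : ∀ r ∈ Icc s s', GeoAt e w w' r := fun r hr => hgeo r (hsℓ r hr).2.1
  have hLR : LocalRiem (chartG e) e.target := localRiem_chartG hem
  have hwU : ∀ r ∈ Icc s s', w r ∈ e.target := fun r hr => (hG r hr).2.2.1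
  have hwc : ContinuousOn w (Icc s s') := fun r hr =>
    (hG r hr).1.continuousAt.continuousWithinAt
  have hw'c : ContinuousOn w' (Icc s s') := fun r hr =>
    (hG r hr).2.1.continuousAt.continuousWithinAt
  obtain ⟨b₀, hb₀, B, hB, hBS⟩ := Fr.change hJ hP hem (hsrc s hmem).1
  rw [(hsrc s hmem).2] at hb₀ hB
  obtain ⟨Y, hYs, hYd, hYon⟩ := exists_frame hLR hlt (fun r hr => (hG r hr).1) hw'c hwU b₀ hb₀
  -- the fields `X i = φ t Y i`
  have hss' : Icc s s' ⊆ Icc a b := Icc_subset_Icc hs.1 hs'.2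
  have hφd : ∀ r ∈ Icc s s', HasDerivWithinAt φ (φ' r) (Icc s s') r := fun r hr =>
    (hφ r (hss' hr)).mono hss'
  have hφ'c : ContinuousOn φ' (Icc s s') := hφ'.mono hss'
  have hYc : ∀ i, ContinuousOn (Y i) (Icc s s') := fun i r hr => (hYd i r hr).continuousWithinAt
  have hGc : ContinuousOn (fun r => chartG e (w r)) (Icc s s') :=
    hLR.smooth.continuousOn.comp hwc hwU
  have hΓc : ContinuousOn (fun r => chris (chartG e) (w r)) (Icc s s') :=
    hLR.contDiffOn_chris.continuousOn.comp hwc hwU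
  have hφc : ContinuousOn φ (Icc s s') := fun r hr => (hφd r hr).continuousWithinAt
  set X : Fin (Module.finrank ℝ E) → ℝ → E := fun i r => φ r • Y i r with hX
  set X' : Fin (Module.finrank ℝ E) → ℝ → E := fun i r =>
    φ' r • Y i r + φ r • (-(chris (chartG e) (w r) (w' r) (Y i r))) with hX'
  have hXd : ∀ i, ∀ r ∈ Icc s s', HasDerivWithinAt (X i) (X' i r) (Icc s s') r := by
    intro i r hr
    have h1 := (hφd r hr).smul (hYd i r hr)
    rw [hX']
    simp only
    rw [add_comm]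
    exact h1
  have hX'c : ∀ i, ContinuousOn (X' i) (Icc s s') := by
    intro i
    exact (hφ'c.smul (hYc i)).add
      (hφc.smul ((hΓc.clm_apply hw'c).clm_apply (hYc i)).neg)
  have hcov : ∀ i, ∀ r, X' i r + chris (chartG e) (w r) (w' r) (X i r) = φ' r • Y i r := by
    intro i r
    simp only [hX', hX, map_smul, smul_neg]
    abel
  have hdist : dist (c 0) (e.symm (w s')) = dist (c 0) (e.symm (w s)) + (s' - s) := by
    rw [← (hsrc s' hmem').2, ← (hsrc s hmem).2, e.left_inv (hsrc s' hmem').1,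
      e.left_inv (hsrc s hmem).1,
      hc 0 ⟨le_rfl, hℓ.le⟩ s' (hsℓ s' hmem').1, hc 0 ⟨le_rfl, hℓ.le⟩ s (hsℓ s hmem).1,
      zero_sub, zero_sub, abs_neg, abs_neg, abs_of_nonneg (hsℓ s' hmem').1.1,
      abs_of_nonneg (hsℓ s hmem).1.1]
    ring
  set Φ : Fin (Module.finrank ℝ E) → ℝ → ℝ := fun i r =>
    φ' r ^ 2 * (1 - chartG e (w r) (w' r) (Y i r) ^ 2) -
      φ r ^ 2 * secG (chartG e) (w r) (Y i r) (w' r) with hΦ
  have hstep : ∀ i, SecUB (c 0) e (w s') (X i s') (B i + ∫ r in s..s', Φ i r) := by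
    intro i
    have h1 := (hSTEP E M e hem (c 0) w w' (X i) (X' i) s s' hlt hG (hXd i) (hX'c i) hdist).1
      (B i) (by rw [hX]; simp only; rw [hYs]; exact hB i)
    convert h1 using 2
    apply intervalIntegral.integral_congr
    intro r hr
    rw [uIcc_of_le hss] at hr
    have h2 := hYon r hr i i
    rw [if_pos rfl] at h2
    simp only [hcov i r, hΦ]
    simp only [map_smul, smul_apply, smul_eq_mul, h2]
    rw [hX]
    simp only
    rw [secG_smul_left]
    ring
  -- continuity of the integrands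
  have hsecc : ∀ i, ContinuousOn (fun r => secG (chartG e) (w r) (Y i r) (w' r)) (Icc s s') := by
    intro i
    have hd2 : ContinuousOn (fun r => fderiv ℝ (fderiv ℝ (chartG e)) (w r)) (Icc s s') :=
      ((hLR.contDiffOn_fderiv).fderiv_of_isOpen hLR.isOpen
        (m := ∞) (by simp)).continuousOn.comp hwc hwU
    have hy := hYc i
    unfold secG
    refine ((((((hd2.clm_apply hy).clm_apply hy).clm_apply hw'c).clm_apply hw'c).add
      ((((hd2.clm_apply hw'c).clm_apply hw'c).clm_apply hy).clm_apply hy)).sub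
      (continuousOn_const.mul
        ((((hd2.clm_apply hw'c).clm_apply hy).clm_apply hy).clm_apply hw'c))).neg.div_const 2
      |>.add ?_ |>.sub ?_
    · exact (hGc.clm_apply ((hΓc.clm_apply hy).clm_apply hw'c)).clm_apply
        ((hΓc.clm_apply hy).clm_apply hw'c)
    · exact (hGc.clm_apply ((hΓc.clm_apply hy).clm_apply hy)).clm_apply
        ((hΓc.clm_apply hw'c).clm_apply hw'c)
  have hΦc : ∀ i, ContinuousOn (Φ i) (Icc s s') := by
    intro i
    refine ((hφ'c.pow 2).mul (continuousOn_const.sub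
      (((hGc.clm_apply hw'c).clm_apply (hYc i)).pow 2))).sub ((hφc.pow 2).mul (hsecc i))
  have hΦi : ∀ i, IntervalIntegrable (Φ i) volume s s' := fun i =>
    ContinuousOn.intervalIntegrable (by rw [uIcc_of_le hss]; exact hΦc i)
  have hsum : ∑ i, (B i + ∫ r in s..s', Φ i r) ≤ S + ∫ r in a..s', g r := by
    rw [Finset.sum_add_distrib, ← intervalIntegral.integral_finsetSum (fun i _ => hΦi i)]
    have h1 : ∫ r in s..s', ∑ i, Φ i r ≤ ∫ r in s..s', g r := by
      apply intervalIntegral.integral_mono_on_of_le_Ioo hss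
      · apply ContinuousOn.intervalIntegrable
        rw [uIcc_of_le hss]
        exact continuousOn_finsetSum _ (fun i _ => hΦc i)
      · exact hgi s hs s' hs'
      intro r hr
      have hrI : r ∈ Icc s s' := ⟨hr.1.le, hr.2.le⟩
      have hrab : r ∈ Ioo a b := ⟨hs.1.trans_lt hr.1, hr.2.trans_le hs'.2⟩
      obtain ⟨Yb, hYb⟩ := basis_of_on (hYon r hrI)
      have hder : HasDerivAt (fun s => e (c s)) (w' r) r := by
        refine (hG r hrI).1.congr_of_eventuallyEq ?_
        filter_upwards [Ioo_mem_nhds hr.1 hr.2] with y hy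
        exact (hsrc y ⟨hy.1.le, hy.2.le⟩).2
      have h2 := H r hrab e hem (hsrc r hrI).1 (w' r) hder
        (by rw [(hsrc r hrI).2]; exact (hG r hrI).2.2.2) Yb
        (by rw [(hsrc r hrI).2, hYb]; exact hYon r hrI)
      rw [(hsrc r hrI).2, hYb] at h2
      refine le_trans (le_of_eq ?_) h2
      have h3 := parseval Yb (by rw [hYb]; exact hYon r hrI) (w' r)
      rw [hYb, (hG r hrI).2.2.2] at h3
      simp only [hΦ]
      rw [Finset.sum_sub_distrib, ← Finset.mul_sum, ← Finset.mul_sum, Finset.sum_sub_distrib, h3]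
      simp
    have h4 : ∫ r in a..s', g r = (∫ r in a..s, g r) + ∫ r in s..s', g r :=
      (intervalIntegral.integral_add_adjacent_intervals
        (hgi a ⟨le_rfl, hab⟩ s hs) (hgi s hs s' hs')).symm
    rw [h4]
    linarith
  obtain ⟨Yb, hYb⟩ := basis_of_on (hYon s' hmem')
  refine ⟨e, hem, (hsrc s' hmem').1, Yb, ?_, _, fun i => ?_, hsum⟩
  · rw [(hsrc s' hmem').2, hYb]; exact hYon s' hmem'
  · rw [(hsrc s' hmem').2, hYb]
    exact hstep i


end

end Vale.Agent.P210.R2.H465
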