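import Vale.Agent.P210.R2.H465.SfW

/-!
# Local forms of the diameter bound and of the averages
-/

open scoped Manifold ContDiff Topology Bundle ENNReal NNReal
open Set Metric Filter Bundle IsManifold MeasureTheory Manifold Asymptotics

set_option maxSynthPendingDepth 3
set_option linter.all false

noncomputable section

namespace Vale.Agent.P210.R2.H465

section surf

open Vale.Agent.P210.R2.H53 Vale.Agent.P210.H204

/-- the scalar curvature is at least `S` on `K` -/
def ScalOn (E : Type) [NormedAddCommGroup E] [NormedSpace ℝ E] (M : Type) [MetricSpace M]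
    [ChartedSpace E M] [RiemannianBundle (fun x : M => TangentSpace 𝓘(ℝ, E) x)]
    [IsManifold 𝓘(ℝ, E) ∞ M] (K : Set M) (S : M → ℝ) : Prop :=
  ∀ e ∈ maximalAtlas 𝓘(ℝ, E) ∞ M, ∀ z ∈ e.target, e.symm z ∈ K → ∃ Γ, IsChristoffel e z Γ ∧
    ∀ b : Module.Basis (Fin (Module.finrank ℝ E)) ℝ E,
      (∀ i j, chartMetric e z (b i) (b j) = if i = j then 1 else 0) →
      S (e.symm z) ≤ ∑ i, ∑ j, sectNum e z Γ (b i) (b j)

variable {E : Type} [NormedAddCommGroup E] [NormedSpace ℝ E] [FiniteDimensional ℝ E]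
  {N : Type} [MetricSpace N] [ChartedSpace E N]
  [RiemannianBundle (fun x : N => TangentSpace 𝓘(ℝ, E) x)]
  [IsManifold 𝓘(ℝ, E) ∞ N]
  [IsContMDiffRiemannianBundle 𝓘(ℝ, E) ∞ E (fun x : N => TangentSpace 𝓘(ℝ, E) x)]

/-- The curvature of the conformal surface `e^{2 φ'} h`, where `φ' = φ` near the point. -/
theorem curv_lower' (hE : Module.finrank ℝ E = 2) {κ β : ℝ} (hβ : 0 ≤ β) {φ φ' : N → ℝ}
    (hφ : ContMDiff 𝓘(ℝ, E) 𝓘(ℝ, ℝ) ∞ φ) (hφ' : ContMDiff 𝓘(ℝ, E) 𝓘(ℝ, ℝ) ∞ φ')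
    {K : Set N} (hS : ScalOn E N K (fun p => 2 * κ + 2 * Lap E φ p + 2 * β * Gam E φ φ p))
    {e : OpenPartialHomeomorph N E} (he : e ∈ maximalAtlas 𝓘(ℝ, E) ∞ N) {z : E}
    (hz : z ∈ e.target) (hzK : e.symm z ∈ K) (heq : φ' =ᶠ[𝓝 (e.symm z)] φ)
    (Y : Module.Basis (Fin (Module.finrank ℝ E)) ℝ E)
    (hY : ON (Real.exp (2 * φ' (e.symm z)) • chartG e z) Y) {v : E}
    (hv : (Real.exp (2 * φ' (e.symm z)) • chartG e z) v v = 1) :
    Real.exp (-(2 * φ' (e.symm z))) * κ + β * fderiv ℝ (φ' ∘ e.symm) z v ^ 2 ≤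
      ∑ i, secG (fun y => Real.exp (2 * φ' (e.symm y)) • chartG e y) z (Y i) v := by
  have hR : LocalRiem (chartG e) e.target := H973.localRiem_chartG he
  have hf : ContDiffOn ℝ ∞ (φ' ∘ e.symm) e.target := H755.contDiffOn_chart he hφ'
  have hp : e.symm z ∈ e.source := e.map_target hz
  have hgerm : (φ' ∘ e.symm) =ᶠ[𝓝 z] (φ ∘ e.symm) :=
    (e.symm.continuousAt hz).eventually heq
  have hlap : lapG (chartG e) (φ' ∘ e.symm) z = lapG (chartG e) (φ ∘ e.symm) z := by
    rw [lapG, lapG, opG, opG, hessG, hessG, hgerm.fderiv_eq, hgerm.fderiv.fderiv_eq]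
  have hgam : gamG (chartG e) (φ' ∘ e.symm) (φ' ∘ e.symm) z =
      gamG (chartG e) (φ ∘ e.symm) (φ ∘ e.symm) z := by
    rw [gamG, gamG, gradG, gradG, hgerm.fderiv_eq]
  have h1 := conf_sum hE hR hz hf (K := 2 * κ + 2 * lapG (chartG e) (φ ∘ e.symm) z +
    2 * β * gamG (chartG e) (φ ∘ e.symm) (φ ∘ e.symm) z) (by
      intro b hb
      obtain ⟨Γ, hΓ, H⟩ := hS e he z hz hzK
      have h2 := H b hb
      simp only at h2
      rw [H755.Lap_chart hφ he hp, H755.Gam_chart hφ hφ he hp, e.right_inv hz] at h2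
      refine h2.trans (le_of_eq ?_)
      exact Finset.sum_congr rfl fun i _ => Finset.sum_congr rfl fun j _ =>
        sectNum_eq he hz hΓ _ _) Y hY hv
  have h2 : Real.exp (-(2 * (φ' ∘ e.symm) z)) * ((2 * κ + 2 * lapG (chartG e) (φ ∘ e.symm) z +
      2 * β * gamG (chartG e) (φ ∘ e.symm) (φ ∘ e.symm) z) / 2 - lapG (chartG e) (φ' ∘ e.symm) z) =
      Real.exp (-(2 * φ' (e.symm z))) * κ + β * (gamG (chartG e) (φ' ∘ e.symm) (φ' ∘ e.symm) z *
        Real.exp (-(2 * φ' (e.symm z)))) := by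
    rw [hlap, hgam]
    simp only [Function.comp_apply]
    ring
  rw [h2] at h1
  refine le_trans ?_ h1
  have h3 := gam_cs hR hz (φ' ∘ e.symm) v
  have h4 : Real.exp (2 * φ' (e.symm z)) * chartG e z v v = 1 := by simpa using hv
  have h5 : chartG e z v v = Real.exp (-(2 * φ' (e.symm z))) := by
    rw [Real.exp_neg]
    exact eq_inv_of_mul_eq_one_right h4
  rw [h5] at h3
  have h6 := mul_le_mul_of_nonneg_left h3 hβ
  linarith

variable [IsRiemannianManifold 𝓘(ℝ, E) N]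

/-- distances on a complete surface with `κ + Δφ + (1 + δ) |∇φ|²/4 ≤ K` are at most
`√((1 + 1/δ)/κ) π` -/
theorem surf_le' [CompleteSpace N] [ConnectedSpace N] (hE : Module.finrank ℝ E = 2)
    {κ δ : ℝ} (hκ : 0 < κ) (hδ : 0 < δ) {φ : N → ℝ} (hφ : ContMDiff 𝓘(ℝ, E) 𝓘(ℝ, ℝ) ∞ φ)
    (p x0 : N) (hS : ScalOn E N (ball p (dist p x0))
      (fun p => 2 * κ + 2 * Lap E φ p + 2 * ((1 + δ) / 4) * Gam E φ φ p)) : κ * dist p x0 ^ 2 ≤ (1 + 1 / δ) * Real.pi ^ 2 := by
  by_contra hcon0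
  push Not at hcon0
  set R := dist p x0 with hR
  have hR0 : 0 < R := by
    rcases (dist_nonneg (x := p) (y := x0)).eq_or_lt with h0 | h0
    · rw [← hR] at h0
      rw [← h0] at hcon0
      have h1 := Real.pi_pos
      have h2 : 0 < (1 + 1 / δ) * Real.pi ^ 2 := by positivity
      nlinarith
    · exact h0
  have hd : R ≤ dist p x0 := le_rfl
  have hJET : Stmt.JET := H265.jet_holds
  have hGEO : Stmt.GEO := H196.geo
  have hSTEP : Stmt.STEP := step_holds hJET
  have : ProperSpace N := properSpace_riemannian E N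
  obtain ⟨φ', B, hφ', hφeq, hB⟩ := exists_cut hφ p R
  have hr : ∀ x, 0 < Real.exp (2 * φ' x) := fun x => Real.exp_pos _
  have hs : ContMDiff 𝓘(ℝ, E) 𝓘(ℝ, ℝ) ∞ fun x => Real.exp (2 * φ' x) :=
    Real.contDiff_exp.contMDiff.comp (contMDiff_const.mul hφ')
  obtain ⟨N', _, _, _, _, _, _, h, hch, hlip⟩ := exists_conformal (E := E) hs hr
  have hlip' := hlip (Real.exp (-B)) (Real.exp_pos _) (fun x => by
    rw [← Real.exp_nat_mul]
    refine Real.exp_le_exp.2 ?_
    push_cast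
    linarith [hB x])
  have : CompleteSpace N' := by
    refine Metric.complete_of_cauchySeq_tendsto fun y hy => ?_
    have h1 : CauchySeq fun n => h.symm (y n) := by
      rw [Metric.cauchySeq_iff] at hy ⊢
      intro ε hε
      obtain ⟨n0, hn0⟩ := hy (Real.exp (-B) * ε) (by positivity)
      refine ⟨n0, fun m hm n hn => ?_⟩
      have h2 := hlip' (h.symm (y m)) (h.symm (y n))
      rw [h.apply_symm_apply, h.apply_symm_apply] at h2
      have h3 := h2.trans_lt (hn0 m hm n hn)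
      exact lt_of_mul_lt_mul_left h3 (Real.exp_pos _).le
    obtain ⟨x, hx⟩ := cauchySeq_tendsto_of_complete h1
    refine ⟨h x, ?_⟩
    have h2 := (h.continuous.tendsto x).comp hx
    refine h2.congr fun n => ?_
    simp
  have : ConnectedSpace N' := h.surjective.connectedSpace h.continuous
  obtain ⟨c, hc, hc0, hcℓ⟩ := ((hGEO E N').1 inferInstance inferInstance).2 (h p) (h x0)
  set ℓ := dist (h p) (h x0) with hℓdef
  have hpx : p ≠ x0 := by
    rintro rfl
    rw [dist_self] at hR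
    linarith
  have hℓ : 0 < ℓ := dist_pos.2 (h.injective.ne hpx)
  have hF : ∀ e ∈ maximalAtlas 𝓘(ℝ, E) ∞ N',
      ContDiffOn ℝ ∞ ((fun x => φ' (h.symm x)) ∘ e.symm) e.target := by
    intro e he
    obtain ⟨e', he', htar, -, -, hsymm, -⟩ := hch e he
    have h1 : (fun x => φ' (h.symm x)) ∘ e.symm = φ' ∘ e'.symm := by
      funext z
      simp [hsymm]
    rw [h1, ← htar]
    exact H755.contDiffOn_chart he' hφ'
  obtain ⟨u', hu'c, hu'd, hu'e⟩ := along_geo hGEO hℓ hc hF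
  set u : ℝ → ℝ := fun s => φ' (h.symm (c s)) with hu
  have huc : ContinuousOn u (Icc 0 ℓ) := fun s hs => (hu'd s hs).continuousWithinAt
  -- the reparametrisation
  have hclc : Continuous fun s : ℝ => max 0 (min ℓ s) := by fun_prop
  have hclI : ∀ s : ℝ, max 0 (min ℓ s) ∈ Icc 0 ℓ := fun s =>
    ⟨le_max_left _ _, max_le hℓ.le (min_le_left _ _)⟩
  have hcl : ∀ s ∈ Icc 0 ℓ, max 0 (min ℓ s) = s := fun s hs => by
    rw [min_eq_right hs.2, max_eq_right hs.1]
  set v : ℝ → ℝ := fun s => Real.exp (-u (max 0 (min ℓ s))) with hv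
  have hvc : Continuous v := Real.continuous_exp.comp (huc.comp_continuous hclc hclI).neg
  have hveq : ∀ s ∈ Icc 0 ℓ, v s = Real.exp (-u s) := fun s hs => by
    rw [hv]
    simp only
    rw [hcl s hs]
  set t : ℝ → ℝ := fun s => ∫ r in (0 : ℝ)..s, v r with ht
  have htd : ∀ s, HasDerivAt t (v s) s := fun s =>
    (hvc.integral_hasStrictDerivAt 0 s).hasDerivAt
  have ht0 : t 0 = 0 := by simp [ht]
  have hlen : ∀ s ∈ Icc 0 ℓ, dist p (h.symm (c s)) ≤ t s := by
    intro s hs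
    have h1 := len_le hJET hGEO (φ := φ') h hch hℓ hc hvc hveq hs
    rw [hc0, h.symm_apply_apply] at h1
    exact h1
  -- the first exit time
  have hfc : ContinuousOn (fun s => dist p (h.symm (c s))) (Icc 0 ℓ) :=
    (continuous_const.dist continuous_id).comp_continuousOn
      (h.symm.continuous.comp_continuousOn (H973.minGeo_continuousOn hc))
  obtain ⟨s1, ⟨hs1, hs1'⟩, hs1min⟩ : ∃ s1, IsLeast (Icc 0 ℓ ∩
      (fun s => dist p (h.symm (c s))) ⁻¹' Ici R) s1 := by
    refine IsCompact.exists_isLeast ?_ ⟨ℓ, ⟨hℓ.le, le_rfl⟩, ?_⟩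
    · exact isCompact_Icc.of_isClosed_subset
        (hfc.preimage_isClosed_of_isClosed isClosed_Icc isClosed_Ici) inter_subset_left
    · show R ≤ dist p (h.symm (c ℓ))
      rw [hcℓ, h.symm_apply_apply]
  have hs1'' : R ≤ dist p (h.symm (c s1)) := hs1'
  have hs10 : 0 < s1 := by
    refine lt_of_le_of_ne hs1.1 ?_
    rintro rfl
    rw [hc0, h.symm_apply_apply, dist_self] at hs1''
    linarith
  have hsub : Icc 0 s1 ⊆ Icc 0 ℓ := Icc_subset_Icc le_rfl hs1.2
  have hball : ∀ s ∈ Ioo 0 s1, h.symm (c s) ∈ ball p R := by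
    intro s hs
    rw [mem_ball']
    by_contra hcon
    push Not at hcon
    have := hs1min ⟨hsub ⟨hs.1.le, hs.2.le⟩, hcon⟩
    linarith [hs.2]
  set T := t s1 with hT
  have hTR : R ≤ T := hs1''.trans (hlen s1 hs1)
  have hT0 : 0 < T := hR0.trans_le hTR
  set a := Real.pi / T with ha
  have haT : a * T = Real.pi := by rw [ha]; field_simp
  have ha0 : 0 < a := div_pos Real.pi_pos hT0
  -- the weight
  have hψ : ∀ s ∈ Icc 0 s1, HasDerivWithinAt
      (fun s => Real.exp (u s / 2) * Real.sin (a * t s))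
      (Real.exp (u s / 2) * (u' s / 2 * Real.sin (a * t s) + a * Real.cos (a * t s) * v s))
      (Icc 0 s1) s := by
    intro s hs
    have h1 : HasDerivWithinAt u (u' s) (Icc 0 s1) s := (hu'd s (hsub hs)).mono hsub
    have h2 := (h1.div_const 2).exp
    have h3 : HasDerivWithinAt t (v s) (Icc 0 s1) s := (htd s).hasDerivWithinAt
    have h4 := h2.mul (h3.const_mul a).sin
    exact h4.congr_deriv (by ring)
  have hucs : ContinuousOn u (Icc 0 s1) := huc.mono hsub
  have htc : Continuous t := continuous_iff_continuousAt.2 fun s => (htd s).continuousAt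
  have hψ' : ContinuousOn (fun s => Real.exp (u s / 2) *
      (u' s / 2 * Real.sin (a * t s) + a * Real.cos (a * t s) * v s)) (Icc 0 s1) := by
    have h1 : ContinuousOn u' (Icc 0 s1) := hu'c.mono hsub
    have h2 : ContinuousOn t (Icc 0 s1) := htc.continuousOn
    have h3 : ContinuousOn v (Icc 0 s1) := hvc.continuousOn
    fun_prop
  have hgc : Continuous fun s => v s * ((1 + 1 / δ) * (a * Real.cos (a * t s)) ^ 2 -
      κ * Real.sin (a * t s) ^ 2) := by
    fun_prop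
  have hstart : Fr E (c 0) c 0 (Real.exp (u 0 / 2) * Real.sin (a * t 0)) 0 := by
    rw [ht0, mul_zero, Real.sin_zero, mul_zero]
    exact Fr.start hJET _ _ _
  have hprop := Fr_propagate hJET hGEO hSTEP hℓ hc le_rfl hs10.le hs1.2
    (g := fun s => v s * ((1 + 1 / δ) * (a * Real.cos (a * t s)) ^ 2 - κ * Real.sin (a * t s) ^ 2))
    (S := 0) hgc.continuousOn hψ hψ' (by
      intro s hs e he hcs v0 hder hunit Y hY
      have hsℓ : s ∈ Icc 0 ℓ := hsub ⟨hs.1.le, hs.2.le⟩
      have hsℓ' : s ∈ Ioo 0 ℓ := ⟨hs.1, hs.2.trans_le hs1.2⟩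
      obtain ⟨e', he', htar, -, -, hsymm, hG⟩ := hch e he
      have hGfun : chartG e = fun y => Real.exp (2 * φ' (e'.symm y)) • chartG e' y := funext hG
      set z := e (c s) with hz
      have hzt : z ∈ e'.target := htar ▸ e.map_source hcs
      have hpt : e'.symm z = h.symm (c s) := by
        have h1 : c s = h (e'.symm z) := by rw [← hsymm, hz, e.left_inv hcs]
        rw [h1, h.symm_apply_apply]
      have hfun : (fun x => φ' (h.symm x)) ∘ e.symm = φ' ∘ e'.symm := by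
        funext z
        simp [hsymm]
      have h1 := hu'e s hsℓ' e he hcs v0 hder
      rw [hfun] at h1
      have h2 := curv_lower' hE (by positivity) hφ hφ' hS he' hzt (by rw [hpt]; exact hball s hs)
        (by rw [hpt]; exact hφeq _ (hball s hs)) Y
        (by rw [← hG]; exact hY) (v := v0) (by rw [← hG]; exact hunit)
      rw [← hGfun, ← h1, hpt] at h2
      have h3 := alg_g hδ (η := Real.sin (a * t s)) (η' := a * Real.cos (a * t s)) h2
      have hE1 : ((Module.finrank ℝ E : ℝ) - 1) = 1 := by rw [hE]; norm_num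
      rw [hE1, mul_one, hveq s hsℓ]
      exact h3) hstart
  have hend : Real.exp (u s1 / 2) * Real.sin (a * t s1) = 0 := by
    rw [← hT, haT, Real.sin_pi, mul_zero]
  rw [hend] at hprop
  have hnn := hprop.nonneg
  have hint : ∫ s in (0 : ℝ)..s1, v s * ((1 + 1 / δ) * (a * Real.cos (a * t s)) ^ 2 -
      κ * Real.sin (a * t s) ^ 2) = T / 2 * ((1 + 1 / δ) * a ^ 2 - κ) := by
    have h1 : ∀ s ∈ uIcc 0 s1, HasDerivAt (fun s =>
        (1 + 1 / δ) * a ^ 2 * (t s / 2 + Real.sin (2 * a * t s) / (4 * a)) -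
        κ * (t s / 2 - Real.sin (2 * a * t s) / (4 * a)))
        (v s * ((1 + 1 / δ) * (a * Real.cos (a * t s)) ^ 2 - κ * Real.sin (a * t s) ^ 2)) s := by
      intro s _
      have h2 := htd s
      have h3 := ((h2.const_mul (2 * a)).sin).div_const (4 * a)
      have h4 := (((h2.div_const 2).add h3).const_mul ((1 + 1 / δ) * a ^ 2)).sub
        (((h2.div_const 2).sub h3).const_mul κ)
      refine h4.congr_deriv ?_
      have h5 : Real.cos (2 * a * t s) = 2 * Real.cos (a * t s) ^ 2 - 1 := by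
        rw [mul_assoc, Real.cos_two_mul]
      have h6 : Real.sin (a * t s) ^ 2 = 1 - Real.cos (a * t s) ^ 2 := Real.sin_sq _
      rw [h5, h6]
      field_simp
      ring
    rw [intervalIntegral.integral_eq_sub_of_hasDerivAt h1 (hgc.intervalIntegrable _ _), ht0, ← hT]
    have h7 : Real.sin (2 * a * T) = 0 := by
      rw [mul_assoc, haT]
      exact Real.sin_two_pi
    rw [h7]
    simp
    ring
  rw [hint, zero_add] at hnn
  have h8 : 0 ≤ (1 + 1 / δ) * a ^ 2 - κ := by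
    by_contra hc'
    push Not at hc'
    nlinarith
  have h9 : κ * T ^ 2 ≤ (1 + 1 / δ) * Real.pi ^ 2 := by
    rw [← haT]
    nlinarith [mul_nonneg h8 (sq_nonneg T)]
  have h10 : κ * R ^ 2 ≤ κ * T ^ 2 := by
    have : R ^ 2 ≤ T ^ 2 := pow_le_pow_left₀ hR0.le hTR 2
    nlinarith
  linarith

end surf

section

open Vale.Agent.P210.R2.H53

/-- the diameter of the base surface -/
theorem surf_diam' {E : Type} [NormedAddCommGroup E] [NormedSpace ℝ E] [FiniteDimensional ℝ E]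
    {N : Type} [MetricSpace N] [ChartedSpace E N]
    [RiemannianBundle (fun x : N => TangentSpace 𝓘(ℝ, E) x)] [IsManifold 𝓘(ℝ, E) ∞ N]
    [IsContMDiffRiemannianBundle 𝓘(ℝ, E) ∞ E (fun x : N => TangentSpace 𝓘(ℝ, E) x)]
    [IsRiemannianManifold 𝓘(ℝ, E) N] [CompleteSpace N] [ConnectedSpace N] {θ : ℝ} (hθ1 : θ < 1)
    {k : ℕ} (hk : 1 ≤ k) (hE : Module.finrank ℝ E = 2) {φ : N → ℝ}
    (hφ : ContMDiff 𝓘(ℝ, E) 𝓘(ℝ, ℝ) ∞ φ)
    (x x' : N) (hS : ScalOn E N (ball x (dist x x'))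
      (fun p => (1 - θ) + 2 * Lap E φ p + (1 + (k : ℝ)⁻¹) * Gam E φ φ p)) : dist x x' ≤ 2 * Real.pi * √((k + 1) / ((k + 2) * (1 - θ))) := by
  have hk0 : (0 : ℝ) < k := by exact_mod_cast hk
  have hθ0 : 0 < 1 - θ := by linarith
  have h1 : (fun p => (1 - θ) + 2 * Lap E φ p + (1 + (k : ℝ)⁻¹) * Gam E φ φ p) =
      fun p => 2 * ((1 - θ) / 2) + 2 * Lap E φ p +
        2 * ((1 + ((k : ℝ) + 2) / k) / 4) * Gam E φ φ p := by
    funext p
    field_simp
    ring
  rw [h1] at hS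
  have h2 := surf_le' hE (κ := (1 - θ) / 2) (δ := ((k : ℝ) + 2) / k) (by linarith)
    (by positivity) hφ x x' hS
  have h3 : 0 ≤ 2 * Real.pi * √(((k : ℝ) + 1) / ((k + 2) * (1 - θ))) := by
    have := Real.pi_pos
    positivity
  refine (abs_le_of_sq_le_sq' ?_ h3).2
  rw [mul_pow, mul_pow, Real.sq_sqrt (by positivity)]
  have h4 : dist x x' ^ 2 ≤ (1 + 1 / (((k : ℝ) + 2) / k)) * Real.pi ^ 2 / ((1 - θ) / 2) := by
    rw [le_div_iff₀ (by linarith)]
    linarith
  refine h4.trans (le_of_eq ?_)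
  field_simp
  ring

end

end Vale.Agent.P210.R2.H465
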