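import Vale.Agent.P210.R2.H465.SfX

/-!
# Local forms of the diameter bound and of the averages
-/

open scoped Manifold ContDiff Topology Bundle ENNReal NNReal
open Set Metric Filter Bundle IsManifold MeasureTheory Manifold Asymptotics

set_option maxSynthPendingDepth 3
set_option linter.all false

noncomputable section

namespace Vale.Agent.P210.R2.H465

open Vale.Agent.P210.R2.H53 Vale.Agent.P210.R2.H973 Vale.Agent.P210.R2.H265

section conv

variable {E : Type} [NormedAddCommGroup E] [NormedSpace ℝ E] [FiniteDimensional ℝ E]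
  {N : Type} [MetricSpace N] [ChartedSpace E N]
  [RiemannianBundle (fun x : N => TangentSpace 𝓘(ℝ, E) x)]
  [IsManifold 𝓘(ℝ, E) ∞ N]
  [IsContMDiffRiemannianBundle 𝓘(ℝ, E) ∞ E (fun x : N => TangentSpace 𝓘(ℝ, E) x)]

variable (E N) in
/-- functions with the curvature inequality -/
def CSK (K : Set N) (c : ℝ) : Set ((N → ℝ) × (N → ℝ)) :=
  {q | ContMDiff 𝓘(ℝ, E) 𝓘(ℝ, ℝ) ∞ q.1 ∧
    ScalOn E N K (fun p => q.2 p + 2 * Lap E q.1 p + c * Gam E q.1 q.1 p)}

theorem convex_CSK {K : Set N} {c : ℝ} (hc : 0 ≤ c) : Convex ℝ (CSK E N K c) := by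
  rintro ⟨φ, σ⟩ ⟨h1, h2⟩ ⟨φ', σ'⟩ ⟨h1', h2'⟩ a b ha hb hab
  have e1 : (a • ((φ, σ) : (N → ℝ) × (N → ℝ)) + b • ((φ', σ') : (N → ℝ) × (N → ℝ))) =
      (fun p => a * φ p + b * φ' p, fun p => a * σ p + b * σ' p) := rfl
  rw [e1]
  refine ⟨?_, ?_⟩
  · have h3 : ContMDiff 𝓘(ℝ, E) 𝓘(ℝ, ℝ) ∞ (fun _ : N => a) := contMDiff_const
    have h4 : ContMDiff 𝓘(ℝ, E) 𝓘(ℝ, ℝ) ∞ (fun _ : N => b) := contMDiff_const
    exact (h3.mul h1).add (h4.mul h1')
  · intro e he z hz hzK
    obtain ⟨Γ, hΓ, h3⟩ := h2 e he z hz hzK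
    obtain ⟨Γ', hΓ', h4⟩ := h2' e he z hz hzK
    refine ⟨Γ, hΓ, fun bs hbs => ?_⟩
    have h5 := h3 bs hbs
    have h6 := h4 bs hbs
    simp only [sectNum_eq he hz hΓ] at h5 ⊢
    simp only [sectNum_eq he hz hΓ'] at h6
    set S := ∑ i, ∑ j, secG (chartG e) z (bs i) (bs j)
    set p := e.symm z
    have he' := H755.mem_chartAt_atlas (E := E) p
    have hR : LocalRiem (chartG (chartAt E p)) (chartAt E p).target :=
      ⟨(chartAt E p).open_target, contDiffOn_chartG he',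
        fun z _ v w => chartG_symm _ z v w, fun z hz v hv => chartG_pos he' hz v hv⟩
    have hp := mem_chart_target E p
    have hf := H755.contDiffOn_chart (H755.mem_chartAt_atlas (E := E) p) h1
    have hg := H755.contDiffOn_chart (H755.mem_chartAt_atlas (E := E) p) h1'
    have h7 : Lap E (fun q => a * φ q + b * φ' q) p = a * Lap E φ p + b * Lap E φ' p :=
      lap_comb hR.isOpen hf hg hp
    have h8 : Gam E (fun q => a * φ q + b * φ' q) (fun q => a * φ q + b * φ' q) p ≤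
        a * Gam E φ φ p + b * Gam E φ' φ' p := gam_comb hR hf hg hp ha hb hab
    have h9 := mul_le_mul_of_nonneg_left h8 hc
    have h10 := mul_le_mul_of_nonneg_left h5 ha
    have h11 := mul_le_mul_of_nonneg_left h6 hb
    have h12 : a * S + b * S = S := by rw [← add_mul, hab, one_mul]
    change a * σ p + b * σ' p + 2 * Lap E (fun q => a * φ q + b * φ' q) p +
      c * Gam E (fun q => a * φ q + b * φ' q) (fun q => a * φ q + b * φ' q) p ≤ S
    rw [h7, ← h12]
    linarith only [h9, h10, h11]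

end conv

/-- the scalar curvature of twisted products, for a set of points with proportional densities -/
theorem twist_varK :
    Stmt.ForT fun E _ _ _ V _ _ _ N _ _ _ _ _ _ F _ _ _ M _ _ _ _ _ _ w Φ =>
    (∀ x, w x = 1) → ScalGE (E × V) M 1 → ∀ (Y : Set F) (y0 : F), y0 ∈ Y → PropD Φ Y →
    ∀ (K : Set N) (s : N → ℝ), (∀ x ∈ K, ∃ y ∈ Y,
      ScalLEAt (fibreMetric Φ x (chartAt V y)) (chartAt V y y) (s x)) →
    ∃ φ : N → ℝ, (φ, fun p => 1 - s p) ∈ CSK E N K (1 + (Module.finrank ℝ V : ℝ)⁻¹) := by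
  intro E _ _ _ V _ _ _ N _ _ _ _ _ _ F _ _ _ M _ _ _ _ _ _ w Φ hw hw0 hT hw1 hS Y y0 hy0 hY K
    s hs
  set β := Module.finBasis ℝ V with hβ
  have hpos : ∀ (x : N) (y : F), 0 < fdet Φ x y := by
    intro x y
    have he := chart_mem_maximalAtlas (I := 𝓘(ℝ, E)) (n := ∞) x
    have hf := chart_mem_maximalAtlas (I := 𝓘(ℝ, V)) (n := ∞) y
    have hz := mem_chart_target E x
    have hy := mem_chart_target V y
    have hκ := localRiem_kap (Φ := Φ) he hf hz
    have h1 := det_gramc_pos β (hκ.symm _ hy) (hκ.pos _ hy)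
    have h2 : fdet Φ x y = (gramc β (kap Φ (chartAt E x) (chartAt V y)
        (chartAt E x x, chartAt V y y))).det := by
      rw [fdet, gramc]
      congr 2
      ext i j
      have h3 := fibreMetric_eq (Φ := Φ) he hf hz hy (β i) (β j)
      rw [(chartAt E x).left_inv (mem_chart_source E x)] at h3
      exact h3
    rw [h2]
    exact h1
  have hph : ∀ (x : N) (y : F), phT Φ (chartAt V y) (chartAt V y y) β x =
      1 / 2 * Real.log (fdet Φ x y) := fun _ _ => rfl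
  have hφ : ContMDiff 𝓘(ℝ, E) 𝓘(ℝ, ℝ) ∞ (phT Φ (chartAt V y0) (chartAt V y0 y0) β) :=
    contMDiff_phT (chart_mem_maximalAtlas y0) (mem_chart_target V y0)
  refine ⟨phT Φ (chartAt V y0) (chartAt V y0 y0) β, hφ, ?_⟩
  intro e he z hz hzK
  have hΓ := isChristoffel_chris he hz
  refine ⟨fun u v => chris (chartG e) z u v, hΓ, fun b hb => ?_⟩
  simp only [sectNum_eq he hz hΓ]
  obtain ⟨y1, hy1, hsc⟩ := hs (e.symm z) hzK
  set f : OpenPartialHomeomorph F V := chartAt V y1 with hfd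
  have hf : f ∈ maximalAtlas 𝓘(ℝ, V) ∞ F := chart_mem_maximalAtlas y1
  set y : V := chartAt V y1 y1 with hyd
  have hy : y ∈ f.target := mem_chart_target V y1
  have hR : LocalRiem (chartG e) e.target := ⟨e.open_target, contDiffOn_chartG he,
    fun z _ v w => chartG_symm e z v w, fun z hz v hv => chartG_pos he hz v hv⟩
  have hzy : ((z, y) : E × V) ∈ e.target ×ˢ f.target := ⟨hz, hy⟩
  have hp : e.symm z ∈ e.source := e.map_target hz
  have hez : e (e.symm z) = z := e.right_inv hz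
  -- bases
  have hκ := localRiem_kap (Φ := Φ) he hf hz
  have hκF := locFam_kap (Φ := Φ) he hf hy
  have hpc := pch_mem (Φ := Φ) he hf
  have hzy' : ((z, y) : E × V) ∈ (pch Φ e f).target := by rw [pch_target]; exact hzy
  obtain ⟨bV, hbV⟩ := exists_onb (kap Φ e f (z, y)) (hκ.symm y hy) (hκ.pos y hy)
  obtain ⟨bb, hbb⟩ := exists_onb (chartG (pch Φ e f) (z, y)) (fun v v' => cgs _ _ _ _)
    (fun v hv => chartG_pos hpc hzy' v hv)
  -- the curvature of the fibre
  have hfibre : ∑ i, ∑ j, secG (fun v => kap Φ e f (z, v)) y (bV i) (bV j) ≤ s (e.symm z) :=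
    scalLE_of hκ (fun y' hy' v v' => fibreMetric_eq he hf hz hy' v v') hy hsc hbV
  -- the scalar curvature of the product
  have hscal : 1 ≤ ∑ i, ∑ j, secG (chartG (pch Φ e f)) (z, y) (bb i) (bb j) := by
    obtain ⟨Γ', hΓ', h1⟩ := hS (pch Φ e f) hpc (z, y) hzy'
    refine (h1 bb hbb).trans (le_of_eq ?_)
    exact Finset.sum_congr rfl fun i _ => Finset.sum_congr rfl fun j _ =>
      sectNum_eq hpc hzy' hΓ' _ _
  -- the flat inequality
  have hB : Blk e.target f.target (chartG e) (kap Φ e f) (chartG (pch Φ e f)) :=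
    ⟨f.open_target, hR, fun z hz => localRiem_kap he hf hz, contDiffOn_kap he hf,
      fun z' hz' v v' => by
        have h1 := chartG_block hT he hf hz' v v'
        rw [hw1, one_mul] at h1
        exact h1⟩
  have hflat := twa_strong hB hz hy (bE := b) hb hbV hbb
  -- the constants
  have hcst : ∀ x : N, phT Φ f y β x = phT Φ (chartAt V y0) (chartAt V y0 y0) β x +
      (1 / 2 * Real.log (fdet Φ (e.symm z) y1) - 1 / 2 * Real.log (fdet Φ (e.symm z) y0)) := by
    intro x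
    have h1 := congrArg Real.log (hY y1 hy1 y0 hy0 x (e.symm z))
    rw [Real.log_mul (hpos _ _).ne' (hpos _ _).ne', Real.log_mul (hpos _ _).ne' (hpos _ _).ne']
      at h1
    rw [hfd, hyd, hph, hph]
    linarith only [h1]
  have hshift : ∀ z' ∈ e.target, logd bV (fun z => kap Φ e f (z, y)) z' =
      (phT Φ (chartAt V y0) (chartAt V y0 y0) β ∘ e.symm) z' +
      ((1 / 2 * Real.log (fdet Φ (e.symm z) y1) - 1 / 2 * Real.log (fdet Φ (e.symm z) y0)) +
        Real.log |(β.toMatrix bV).det|) := by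
    intro z' hz'
    rw [logd_change hκF β bV hz', Function.comp, ← phT_chart he hf hz' hy, hcst]
    ring
  rw [lap_shift _ e.open_target hshift hz, gam_shift2 _ e.open_target hshift hz] at hflat
  change 1 - s (e.symm z) + 2 * Lap E _ (e.symm z) + _ * Gam E _ _ (e.symm z) ≤ _
  simp only [H755.Lap_chart hφ he hp, H755.Gam_chart hφ hφ he hp, hez]
  linarith only [hflat, hfibre, hscal]

/-- averages -/
theorem twist_avgK {θ : ℝ} :
    Stmt.ForT fun E _ _ _ V _ _ _ N _ _ _ _ _ _ F _ _ _ M _ _ _ _ _ _ w Φ =>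
    (∀ x, w x = 1) → ScalGE (E × V) M 1 → ∀ (r : ℕ) (p : Fin r → ℝ) (Y : Fin r → Set F),
    (∀ j, 0 ≤ p j) → ∑ j, p j = 1 → (∀ j, PropD Φ (Y j)) →
    ∀ K : Set N, (∀ x ∈ K, ∃ (y : Fin r → F) (s : Fin r → ℝ), (∀ j, y j ∈ Y j ∧
      ScalLEAt (fibreMetric Φ x (chartAt V (y j))) (chartAt V (y j) (y j)) (s j)) ∧
      ∑ j, p j * s j ≤ θ) → ∀ x0 ∈ K,
    ∃ φ : N → ℝ, ContMDiff 𝓘(ℝ, E) 𝓘(ℝ, ℝ) ∞ φ ∧
      ScalOn E N K (fun p => (1 - θ) + 2 * Lap E φ p +
        (1 + (Module.finrank ℝ V : ℝ)⁻¹) * Gam E φ φ p) := by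
  intro E _ _ _ V _ _ _ N _ _ _ _ _ _ F _ _ _ M _ _ _ _ _ _ w Φ hw hw0 hT hw1 hS r p Y hp hp1 hY
    K hs x0 hx0
  classical
  have hs' : ∀ x : N, ∃ (y : Fin r → F) (s : Fin r → ℝ), x ∈ K → (∀ j, y j ∈ Y j ∧
      ScalLEAt (fibreMetric Φ x (chartAt V (y j))) (chartAt V (y j) (y j)) (s j)) ∧
      ∑ j, p j * s j ≤ θ := by
    intro x
    by_cases hx : x ∈ K
    · obtain ⟨y, s, h⟩ := hs x hx
      exact ⟨y, s, fun _ => h⟩
    · obtain ⟨y, s, h⟩ := hs x0 hx0
      exact ⟨y, s, fun h' => absurd h' hx⟩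
  choose y s hys using hs'
  have h1 : ∀ j, ∃ φ : N → ℝ, (φ, fun x => 1 - s x j) ∈
      CSK E N K (1 + (Module.finrank ℝ V : ℝ)⁻¹) := fun j =>
    twist_varK E V N F M w Φ hw hw0 hT hw1 hS (Y j) (y x0 j) ((hys x0 hx0).1 j).1 (hY j) K
      (fun x => s x j) (fun x hx => ⟨y x j, ((hys x hx).1 j).1, ((hys x hx).1 j).2⟩)
  choose φ hφ using h1
  have h2 := (convex_CSK (E := E) (N := N) (K := K) (c := 1 + (Module.finrank ℝ V : ℝ)⁻¹)
    (by positivity)).sum_mem (t := Finset.univ) (w := p) (z := fun j => (φ j, fun x => 1 - s x j))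
    (fun j _ => hp j) hp1 (fun j _ => hφ j)
  obtain ⟨h3, h4⟩ := h2
  refine ⟨_, h3, ?_⟩
  intro e he z hz hzK
  obtain ⟨Γ, hΓ, h5⟩ := h4 e he z hz hzK
  refine ⟨Γ, hΓ, fun b hb => le_trans ?_ (h5 b hb)⟩
  have h6 : (∑ j, p j • ((φ j, fun x => 1 - s x j) : (N → ℝ) × (N → ℝ))).2 (e.symm z) =
      1 - ∑ j, p j * s (e.symm z) j := by
    rw [Prod.snd_sum, Finset.sum_apply]
    simp only [Prod.smul_snd, Pi.smul_apply, smul_eq_mul, mul_sub, mul_one,
      Finset.sum_sub_distrib, hp1]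
  have h7 := (hys (e.symm z) hzK).2
  dsimp only
  rw [h6]
  linarith only [h7]

end Vale.Agent.P210.R2.H465
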